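import Vale.Agent.P254.Box.OneD
import Vale.Agent.P254.Perm.SlicesCore
import Vale.Agent.P254.Perm.Sec
import Vale.Agent.P254.Unc.Stab2
import Vale.Agent.P254.DetTrace

/-!
P254: convex bodies in a parallelepiped `P`: `det Σ_K / |K|² ≤ 12⁻ⁿ (|P| / |K|)²`.
-/

open MeasureTheory Set Matrix

namespace Vale.Agent.P254.Box

variable {m : ℕ}

/-- variance of the first coordinate -/
theorem var_prod (hm : 1 ≤ m) {L : Set (ℝ × (Fin m → ℝ))} (hc : Convex ℝ L) (hL : IsCompact L)
    {α β : ℝ} (hαβ : ∀ p ∈ L, p.1 ∈ Icc α β) :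
    (volume L).toReal * (∫ p in L, p.1 ^ 2) - (∫ p in L, p.1) ^ 2 ≤
      (β - α) ^ 2 / 12 * (volume L).toReal ^ 2 := by
  rcases L.eq_empty_or_nonempty with rfl | hne
  · simp
  obtain ⟨a, b, g, hab, hconc, hg0, hg, hout⟩ := Vale.Agent.P254.Perm.sec m hm hc hL hne
  obtain ⟨p, hp⟩ := hne
  have hpa : p.1 ∈ Icc a b := by
    by_contra h
    have h1 := hout p.1 h
    have h2 : p.2 ∈ {y | (p.1, y) ∈ L} := hp
    rw [h1] at h2
    exact h2
  have hpα := hαβ p hp
  set a' := max a α with ha'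
  set b' := min b β with hb'
  have hab' : a' ≤ b' := (max_le hpa.1 hpα.1).trans (le_min hpa.2 hpα.2)
  have hsub : Icc a' b' ⊆ Icc a b := Icc_subset_Icc (le_max_left _ _) (min_le_left _ _)
  have hout' : ∀ s ∉ Icc a' b', {y | (s, y) ∈ L} = ∅ := by
    intro s hs
    by_cases h : s ∈ Icc a b
    · rw [eq_empty_iff_forall_notMem]
      intro y hy
      have h1 := hαβ (s, y) hy
      exact hs ⟨max_le h.1 h1.1, le_min h.2 h1.2⟩
    · exact hout s h
  have hg' : ∀ s ∈ Icc a' b', g s ^ m = (volume {y | (s, y) ∈ L}).toReal := fun s hs =>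
    hg s (hsub hs)
  have eM : (volume L).toReal = ∫ t in a'..b', g t ^ m := by
    rw [Perm.vol_slice' hL hab' hout']
    refine intervalIntegral.integral_congr fun s hs => ?_
    rw [uIcc_of_le hab'] at hs
    exact (hg' s hs).symm
  have e2 : ∫ p in L, p.1 ^ 2 = ∫ t in a'..b', t ^ 2 * g t ^ m := by
    rw [Perm.int_slice' hL hab' hout' (f := fun p => p.1 ^ 2) (by fun_prop)]
    refine intervalIntegral.integral_congr fun s hs => ?_
    rw [uIcc_of_le hab'] at hs
    simp only [integral_const, smul_eq_mul]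
    rw [hg' s hs, Measure.real, Measure.restrict_apply_univ, mul_comm]
  have e1 : ∫ p in L, p.1 = ∫ t in a'..b', t * g t ^ m := by
    rw [Perm.int_slice' hL hab' hout' (f := fun p => p.1) (by fun_prop)]
    refine intervalIntegral.integral_congr fun s hs => ?_
    rw [uIcc_of_le hab'] at hs
    simp only [integral_const, smul_eq_mul]
    rw [hg' s hs, Measure.real, Measure.restrict_apply_univ, mul_comm]
  rw [e2, e1, eM]
  refine (var_conc m hm hab' (hconc.subset hsub (convex_Icc _ _))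
    (fun s hs => hg0 s (hsub hs))).trans ?_
  have h1 : b' - a' ≤ β - α := by
    have := min_le_right b β
    have := le_max_right a α
    linarith
  have h2 : 0 ≤ b' - a' := sub_nonneg.2 hab'
  have h3 : (b' - a') ^ 2 ≤ (β - α) ^ 2 := pow_le_pow_left₀ h2 h1 2
  exact mul_le_mul_of_nonneg_right (div_le_div_of_nonneg_right h3 (by norm_num)) (sq_nonneg _)

/-- the body as a subset of `ℝ × ℝ^m`, `k`-th coordinate first -/
def toLk (k : Fin (m + 1)) (K : Set (Fin (m + 1) → ℝ)) : Set (ℝ × (Fin m → ℝ)) :=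
  {p | (k.insertNth p.1 p.2 : Fin (m + 1) → ℝ) ∈ K}

theorem toLk_eq (k : Fin (m + 1)) (K : Set (Fin (m + 1) → ℝ)) :
    toLk k K = (fun x : Fin (m + 1) → ℝ => (x k, fun j => x (k.succAbove j))) '' K := by
  ext p
  constructor
  · intro hp
    exact ⟨k.insertNth p.1 p.2, hp, by simp⟩
  · rintro ⟨x, hx, rfl⟩
    show (k.insertNth (x k) (fun j => x (k.succAbove j)) : Fin (m + 1) → ℝ) ∈ K
    convert hx using 1
    funext i
    induction i using Fin.succAboveCases k with
    | x => simp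
    | p i => simp

theorem isCompact_toLk (k : Fin (m + 1)) {K : Set (Fin (m + 1) → ℝ)} (hK : IsCompact K) :
    IsCompact (toLk k K) := by
  rw [toLk_eq]
  exact hK.image (by fun_prop)

theorem convex_toLk (k : Fin (m + 1)) {K : Set (Fin (m + 1) → ℝ)} (hK : Convex ℝ K) :
    Convex ℝ (toLk k K) := by
  intro p hp q hq a b ha hb hab
  have h := hK hp hq ha hb hab
  show (k.insertNth (a • p + b • q).1 (a • p + b • q).2 : Fin (m + 1) → ℝ) ∈ K
  convert h using 1
  funext i
  induction i using Fin.succAboveCases k with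
  | x => simp
  | p i => simp

/-- The change of variables. -/
noncomputable def ek (k : Fin (m + 1)) : ℝ × (Fin m → ℝ) ≃ᵐ (Fin (m + 1) → ℝ) :=
  (MeasurableEquiv.piFinSuccAbove (fun _ : Fin (m + 1) => ℝ) k).symm

theorem ek_apply (k : Fin (m + 1)) (p : ℝ × (Fin m → ℝ)) :
    ek k p = (k.insertNth p.1 p.2 : Fin (m + 1) → ℝ) := rfl

theorem mp_ek (k : Fin (m + 1)) : MeasurePreserving (ek (m := m) k) volume volume :=
  (volume_preserving_piFinSuccAbove (fun _ : Fin (m + 1) => ℝ) k).symm _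

theorem preim_k (k : Fin (m + 1)) (K : Set (Fin (m + 1) → ℝ)) : ek k ⁻¹' K = toLk k K := rfl

theorem int_toLk (k : Fin (m + 1)) (K : Set (Fin (m + 1) → ℝ)) (f : (Fin (m + 1) → ℝ) → ℝ) :
    ∫ x in K, f x = ∫ p in toLk k K, f (k.insertNth p.1 p.2) := by
  rw [← (mp_ek k).setIntegral_preimage_emb (ek k).measurableEmbedding f K, preim_k]
  rfl

theorem vol_toLk (k : Fin (m + 1)) (K : Set (Fin (m + 1) → ℝ)) :
    volume (toLk k K) = volume K := by
  rw [← preim_k]
  exact (mp_ek k).measure_preimage_equiv K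

/-- variance of a coordinate -/
theorem var_coord (hm : 1 ≤ m) (k : Fin (m + 1)) {K : Set (Fin (m + 1) → ℝ)} (hc : Convex ℝ K)
    (hK : IsCompact K) {α β : ℝ} (hαβ : ∀ x ∈ K, x k ∈ Icc α β) :
    (volume K).toReal * (∫ x in K, x k ^ 2) - (∫ x in K, x k) ^ 2 ≤
      (β - α) ^ 2 / 12 * (volume K).toReal ^ 2 := by
  have h := var_prod hm (convex_toLk k hc) (isCompact_toLk k hK) (α := α) (β := β)
    (fun p hp => by simpa using hαβ _ hp)
  rw [vol_toLk] at h
  have e1 : ∫ x in K, x k = ∫ p in toLk k K, p.1 := by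
    rw [int_toLk k K (fun x => x k)]
    simp
  have e2 : ∫ x in K, x k ^ 2 = ∫ p in toLk k K, p.1 ^ 2 := by
    rw [int_toLk k K (fun x => x k ^ 2)]
    simp
  rw [e1, e2]
  exact h

/-- the diagonal of the covariance matrix of a body in the unit cube -/
theorem cov_diag_le {n : ℕ} (hn : 2 ≤ n) {K : Set (Fin n → ℝ)} (hK : IsConvexBody K)
    (hsub : K ⊆ Icc 0 1) (i : Fin n) : covMatrix K i i ≤ 1 / 12 := by
  obtain ⟨m, rfl⟩ : ∃ m, n = m + 1 := ⟨n - 1, by omega⟩
  have hV := volume_pos_of_body hK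
  have h := var_coord (by omega : 1 ≤ m) i hK.1 hK.2.1 (α := 0) (β := 1)
    (fun x hx => ⟨(hsub hx).1 i, (hsub hx).2 i⟩)
  rw [cov_eq hK.2.1 hV.ne', centroid]
  set V := (volume K).toReal with hVd
  have e : V⁻¹ * (∫ x in K, x i * x i) - (V⁻¹ * ∫ x in K, x i) * (V⁻¹ * ∫ x in K, x i)
      = (V * (∫ x in K, x i ^ 2) - (∫ x in K, x i) ^ 2) / V ^ 2 := by
    have : ∀ x : Fin (m + 1) → ℝ, x i * x i = x i ^ 2 := fun x => by ring
    simp_rw [this]
    field_simp
  rw [e, div_le_iff₀ (by positivity)]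
  linarith

theorem det_le_cube {n : ℕ} (hn : 2 ≤ n) {K : Set (Fin n → ℝ)} (hK : IsConvexBody K)
    (hsub : K ⊆ Icc 0 1) : (covMatrix K).det ≤ (1 / 12) ^ n := by
  have hn0 : (0 : ℝ) < n := by exact_mod_cast (by omega : 0 < n)
  have h := det_le_trace_pow (by omega) (covMatrix_posSemidef hK.2.1)
  refine h.trans (pow_le_pow_left₀ ?_ ?_ n)
  · exact div_nonneg (covMatrix_posSemidef hK.2.1).trace_nonneg hn0.le
  · rw [div_le_iff₀ hn0, trace]
    calc ∑ i, (covMatrix K).diag i ≤ ∑ _i : Fin n, (1 / 12 : ℝ) :=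
          Finset.sum_le_sum fun i _ => cov_diag_le hn hK hsub i
      _ = 1 / 12 * n := by simp; ring

/-- `K ⊆ P = A [0,1]ⁿ + b`. -/
theorem box_det {n : ℕ} (hn : 2 ≤ n) {K : Set (Fin n → ℝ)} (hK : IsConvexBody K)
    {A : Matrix (Fin n) (Fin n) ℝ} (hA : A.det ≠ 0) {b : Fin n → ℝ}
    (hsub : K ⊆ aff A b '' Icc 0 1) :
    (covMatrix K).det / (volume K).toReal ^ 2 ≤
      (1 / 12) ^ n * ((volume (aff A b '' Icc 0 1)).toReal / (volume K).toReal) ^ 2 := by
  have hVK := volume_pos_of_body hK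
  -- the preimage
  have hinj := aff_injective hA b
  set K' : Set (Fin n → ℝ) := aff A b ⁻¹' K with hK'
  have hKK : aff A b '' K' = K := by
    rw [hK', image_preimage_eq_iff]
    exact hsub.trans (image_subset_range _ _)
  have hK'sub : K' ⊆ Icc 0 1 := by
    intro x hx
    obtain ⟨y, hy, hxy⟩ := hsub hx
    rwa [← hinj hxy]
  have hcont := continuous_aff A b
  have hK'body : IsConvexBody K' := by
    refine ⟨?_, ?_, ?_⟩
    · intro x hx y hy s t hs ht hst
      have := hK.1 hx hy hs ht hst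
      show aff A b (s • x + t • y) ∈ K
      convert this using 1
      simp only [aff, mulVec_add, mulVec_smul, smul_add]
      have e : b = s • b + t • b := by rw [← add_smul, hst, one_smul]
      nth_rewrite 1 [e]
      abel
    · exact isCompact_Icc.of_isClosed_subset (hK.2.1.isClosed.preimage hcont) hK'sub
    · obtain ⟨x, hx⟩ := hK.2.2
      have hxK : x ∈ K := interior_subset hx
      rw [← hKK] at hxK
      obtain ⟨y, hy, rfl⟩ := hxK
      exact ⟨y, interior_maximal (preimage_mono interior_subset)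
        (isOpen_interior.preimage hcont) hx⟩
  have hVK' := volume_pos_of_body hK'body
  have e1 : (covMatrix K).det / (volume K).toReal ^ 2
      = (covMatrix K').det / (volume K').toReal ^ 2 := by
    rw [← hKK, cov_aff_image hA b hK'body.2.1 hVK'.ne',
      volume_aff_image hA b hK'body.2.1.measurableSet,
      det_mul, det_mul, det_transpose, mul_pow, sq_abs]
    field_simp
  have e2 : (volume (aff A b '' Icc 0 1)).toReal / (volume K).toReal
      = 1 / (volume K').toReal := by
    rw [← hKK, volume_aff_image hA b hK'body.2.1.measurableSet,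
      volume_aff_image hA b measurableSet_Icc]
    have : (volume (Icc (0 : Fin n → ℝ) 1)).toReal = 1 := by
      rw [Real.volume_Icc_pi]
      simp
    rw [this]
    have hA' : |A.det| ≠ 0 := abs_ne_zero.2 hA
    field_simp
  rw [e1, e2]
  have h := det_le_cube hn hK'body hK'sub
  rw [div_le_iff₀ (by positivity)]
  refine h.trans (le_of_eq ?_)
  field_simp

/-- **Bodies in a parallelepiped.** -/
theorem box_lt {n : ℕ} (hn : 1 ≤ n) {K S : Set (Fin n → ℝ)} (hK : IsConvexBody K)
    (hS : IsSimplex S) {A : Matrix (Fin n) (Fin n) ℝ} (hA : A.det ≠ 0) {b : Fin n → ℝ}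
    (hsub : K ⊆ aff A b '' Icc 0 1)
    (hvol : (volume (aff A b '' Icc 0 1)).toReal ^ 2 <
      12 ^ n * FV.simpC n * (volume K).toReal ^ 2) :
    isoConst K < isoConst S := by
  have hVK := volume_pos_of_body hK
  rcases Nat.lt_or_ge n 2 with h2 | h2
  · obtain rfl : n = 1 := by omega
    exfalso
    have h1 : (volume K).toReal ≤ (volume (aff A b '' Icc 0 1)).toReal := by
      refine ENNReal.toReal_mono ?_ (measure_mono hsub)
      exact (isCompact_aff_image A b isCompact_Icc).measure_ne_top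
    have h3 : FV.simpC 1 = 1 / 12 := by
      unfold FV.simpC
      norm_num
    rw [h3] at hvol
    nlinarith
  · refine lt_of_bound (by omega) hK hS (box_det h2 hK hA hsub) ?_
    rw [one_div, inv_pow, inv_mul_lt_iff₀ (by positivity), div_pow, div_lt_iff₀ (by positivity)]
    exact hvol

end Vale.Agent.P254.Box
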