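import Vale.Agent.P254.Box.One582
import Vale.Agent.P254.Fib.CapSq582

/-! P254/Box: the one-dimensional lemma `OneVar` (helper582). -/

open MeasureTheory Set Real

namespace Vale.Agent.P254.Box

theorem crossing {k : ℕ} (hk : k ≠ 0) {a b : ℝ} {g : ℝ → ℝ} (hconc : ConcaveOn ℝ (Icc a b) g)
    (hpos : ∀ s ∈ Icc a b, 0 ≤ g s) {lam c : ℝ} (hlam : 0 < lam) :
    ∃ x1 x2 : ℝ, ∀ x : ℝ, ((Icc a b).indicator (fun x => g x ^ k) x - lam * exp (-(c * x))) *
      ((x - x1) * (x - x2)) ≤ 0 := by
  set mu := lam ^ ((k : ℝ)⁻¹) with hmu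
  have hmu0 : 0 ≤ mu := rpow_nonneg hlam.le _
  have hmuk : mu ^ k = lam := rpow_inv_natCast_pow hlam.le hk
  have hk' : (k : ℝ) ≠ 0 := by exact_mod_cast hk
  set u : ℝ → ℝ := fun x => mu * exp (-(c * x) / k) with hu
  have huk : ∀ x, u x ^ k = lam * exp (-(c * x)) := by
    intro x
    simp only [hu]
    rw [mul_pow, hmuk, ← exp_nat_mul]
    congr 2
    field_simp
  have hu0 : ∀ x, 0 ≤ u x := fun x => mul_nonneg hmu0 (exp_pos _).le
  set E : Set ℝ := {x | x ∈ Icc a b ∧ u x ≤ g x} with hE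
  have hout : ∀ x, x ∉ E → (Icc a b).indicator (fun x => g x ^ k) x - lam * exp (-(c * x)) ≤ 0 := by
    intro x hx
    by_cases h : x ∈ Icc a b
    · rw [indicator_of_mem h, ← huk, sub_nonpos]
      have h1 : g x < u x := by
        by_contra h2
        exact hx ⟨h, not_lt.1 h2⟩
      exact pow_le_pow_left₀ (hpos x h) h1.le k
    · rw [indicator_of_notMem h]
      have := mul_pos hlam (exp_pos (-(c * x)))
      linarith
  have hin : ∀ x, x ∈ E → 0 ≤ (Icc a b).indicator (fun x => g x ^ k) x - lam * exp (-(c * x)) := by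
    rintro x ⟨h, h1⟩
    rw [indicator_of_mem h, ← huk, sub_nonneg]
    exact pow_le_pow_left₀ (hu0 x) h1 k
  have hconv : ∀ x ∈ E, ∀ y ∈ E, ∀ z, x < z → z < y → z ∈ E := by
    rintro x ⟨hx, hx1⟩ y ⟨hy, hy1⟩ z hxz hzy
    have hyx : 0 < y - x := by linarith
    set α := (y - z) / (y - x) with hα
    set β := (z - x) / (y - x) with hβ
    have hα0 : 0 ≤ α := div_nonneg (by linarith) hyx.le
    have hβ0 : 0 ≤ β := div_nonneg (by linarith) hyx.le
    have hαβ : α + β = 1 := by
      rw [hα, hβ, ← add_div]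
      exact (div_eq_one_iff_eq hyx.ne').2 (by ring)
    have hz : α * x + β * y = z := by
      rw [hα, hβ]
      field_simp
      ring
    have h1 := hconc.2 hx hy hα0 hβ0 hαβ
    simp only [smul_eq_mul, hz] at h1
    have h2 := convexOn_exp.2 (mem_univ (-(c * x) / k)) (mem_univ (-(c * y) / k)) hα0 hβ0 hαβ
    simp only [smul_eq_mul] at h2
    have h3 : α * (-(c * x) / k) + β * (-(c * y) / k) = -(c * z) / k := by
      rw [← hz]; ring
    rw [h3] at h2
    have h4 : u z ≤ α * u x + β * u y := by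
      have := mul_le_mul_of_nonneg_left h2 hmu0
      simp only [hu]
      linarith
    refine ⟨⟨hx.1.trans hxz.le, hzy.le.trans hy.2⟩, ?_⟩
    have h5 := mul_le_mul_of_nonneg_left hx1 hα0
    have h6 := mul_le_mul_of_nonneg_left hy1 hβ0
    linarith
  rcases E.eq_empty_or_nonempty with hemp | hne
  · refine ⟨0, 0, fun x => ?_⟩
    refine mul_nonpos_of_nonpos_of_nonneg (hout x (by rw [hemp]; exact notMem_empty x)) ?_
    nlinarith [sq_nonneg x]
  · have hbb : BddBelow E := ⟨a, fun x hx => hx.1.1⟩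
    have hba : BddAbove E := ⟨b, fun x hx => hx.1.2⟩
    have hle : sInf E ≤ sSup E := csInf_le_csSup hne hbb hba
    refine ⟨sInf E, sSup E, fun x => ?_⟩
    rcases lt_or_ge x (sInf E) with h1 | h1
    · refine mul_nonpos_of_nonpos_of_nonneg (hout x fun h => ?_) ?_
      · exact absurd (csInf_le hbb h) (not_le.2 h1)
      · exact mul_nonneg_of_nonpos_of_nonpos (by linarith) (by linarith)
    rcases lt_or_ge (sSup E) x with h2 | h2
    · refine mul_nonpos_of_nonpos_of_nonneg (hout x fun h => ?_) ?_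
      · exact absurd (le_csSup hba h) (not_le.2 h2)
      · exact mul_nonneg (by linarith) (by linarith)
    rcases h1.eq_or_lt with h3 | h3
    · rw [← h3]; simp
    rcases h2.eq_or_lt with h4 | h4
    · rw [← h4]; simp
    obtain ⟨y1, hy1, hy1'⟩ := exists_lt_of_csInf_lt hne h3
    obtain ⟨y2, hy2, hy2'⟩ := exists_lt_of_lt_csSup hne h4
    refine mul_nonpos_of_nonneg_of_nonpos (hin x (hconv y1 hy1 y2 hy2 x hy1' hy2')) ?_
    exact mul_nonpos_of_nonneg_of_nonpos (by linarith) (by linarith)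

theorem toF {a b : ℝ} (ha : 0 ≤ a) (hab : a ≤ b) (hb : b ≤ 1) (f w : ℝ → ℝ) :
    ∫ x in (0 : ℝ)..1, w x * (Icc a b).indicator f x = ∫ x in a..b, w x * f x := by
  rw [intervalIntegral.integral_of_le zero_le_one, intervalIntegral.integral_of_le hab,
    ← integral_Icc_eq_integral_Ioc, ← integral_Icc_eq_integral_Ioc]
  have h : ∀ x, w x * (Icc a b).indicator f x = (Icc a b).indicator (fun x => w x * f x) x := by
    intro x
    by_cases hx : x ∈ Icc a b
    · rw [indicator_of_mem hx, indicator_of_mem hx]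
    · rw [indicator_of_notMem hx, indicator_of_notMem hx, mul_zero]
  simp only [h]
  rw [setIntegral_indicator measurableSet_Icc, inter_eq_right.2 (Icc_subset_Icc ha hb)]

theorem pos_int {a b : ℝ} (hab : a ≤ b) {f w : ℝ → ℝ} (hf : IntegrableOn f (Icc a b))
    (hf0 : ∀ x ∈ Icc a b, 0 ≤ f x) (hw : Continuous w) (hw0 : ∀ x ∈ Icc a b, 0 ≤ w x) {x0 : ℝ}
    (hwz : ∀ x, w x = 0 → x = x0) (hM : 0 < ∫ x in a..b, f x) : 0 < ∫ x in a..b, w x * f x := by
  rw [intervalIntegral.integral_of_le hab, ← integral_Icc_eq_integral_Ioc] at *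
  have hwf : IntegrableOn (fun x => w x * f x) (Icc a b) :=
    hf.continuousOn_mul hw.continuousOn isCompact_Icc
  have h0 : 0 ≤ᵐ[volume.restrict (Icc a b)] fun x => w x * f x := by
    filter_upwards [ae_restrict_mem measurableSet_Icc] with x hx
    exact mul_nonneg (hw0 x hx) (hf0 x hx)
  refine lt_of_le_of_ne (integral_nonneg_of_ae h0) fun h => ?_
  have h1 := (integral_eq_zero_iff_of_nonneg_ae h0 hwf).1 h.symm
  have h2 : ∀ᵐ x ∂(volume.restrict (Icc a b)), x ≠ x0 :=
    ae_restrict_of_ae (by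
      rw [ae_iff]
      simp)
  have h3 : f =ᵐ[volume.restrict (Icc a b)] 0 := by
    filter_upwards [h1, h2] with x hx hx'
    simp only [Pi.zero_apply] at hx ⊢
    rcases mul_eq_zero.1 hx with h4 | h4
    · exact absurd (hwz x h4) hx'
    · exact h4
  rw [integral_congr_ae h3] at hM
  simp at hM

theorem oneVar : OneVar := by
  intro k hk a b ha hab hb g hconc hpos
  have hk0 : k ≠ 0 := by omega
  have hI : IntegrableOn (fun s => g s ^ k) (Icc a b) :=
    Fib.H582.int_pow (Fib.H582.conc_aem hconc) hpos (Fib.H582.g_le hconc hpos) k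
  set M := ∫ t in a..b, g t ^ k with hM
  set S1 := ∫ t in a..b, t * g t ^ k with hS1
  set S2 := ∫ t in a..b, t ^ 2 * g t ^ k with hS2
  have hM0 : 0 ≤ M :=
    intervalIntegral.integral_nonneg hab fun t ht => pow_nonneg (hpos t ht) _
  rcases hM0.eq_or_lt with h | hMp
  · rw [← h]
    nlinarith [sq_nonneg S1]
  have hfp : ∀ x ∈ Icc a b, 0 ≤ g x ^ k := fun x hx => pow_nonneg (hpos x hx) _
  have hS1p : 0 < S1 := pos_int hab hI hfp continuous_id (fun x hx => ha.trans hx.1) (x0 := 0)
    (fun x hx => hx) hMp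
  have hS1M : S1 < M := by
    have h1 : 0 < ∫ t in a..b, (1 - t) * g t ^ k :=
      pos_int hab hI hfp (by fun_prop) (fun x hx => by linarith [hx.2]) (x0 := 1)
        (fun x hx => by linarith) hMp
    have jI : IntervalIntegrable (fun s => g s ^ k) volume a b := by
      rwa [intervalIntegrable_iff_integrableOn_Icc_of_le hab]
    have h2 : ∫ t in a..b, (1 - t) * g t ^ k = M - S1 := by
      rw [hM, hS1, ← intervalIntegral.integral_sub jI (jI.continuousOn_mul (by fun_prop))]
      congr 1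
      ext t
      ring
    rw [h2] at h1
    linarith
  obtain ⟨c, hc⟩ := exists_tilt hS1p hS1M
  have hA0 := Am_pos c
  set lam := M / Am 0 c with hlam
  have hlam0 : 0 < lam := div_pos hMp hA0
  have l0 : lam * Am 0 c = M := by rw [hlam]; field_simp
  have l1 : lam * Am 1 c = S1 := by
    rw [hlam, div_mul_eq_mul_div, div_eq_iff hA0.ne']
    linarith
  obtain ⟨x1, x2, hx⟩ := crossing hk0 hconc hpos (c := c) hlam0
  -- integrate
  set F : ℝ → ℝ := (Icc a b).indicator (fun x => g x ^ k) with hF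
  have hFi : IntervalIntegrable F volume 0 1 := by
    rw [intervalIntegrable_iff_integrableOn_Icc_of_le zero_le_one]
    exact ((integrable_indicator_iff measurableSet_Icc).2 hI).integrableOn
  have hwF : ∀ w : ℝ → ℝ, Continuous w → IntervalIntegrable (fun x => w x * F x) volume 0 1 :=
    fun w hw => hFi.continuousOn_mul hw.continuousOn
  have hwe : ∀ w : ℝ → ℝ, Continuous w →
      IntervalIntegrable (fun x => w x * exp (-(c * x))) volume 0 1 := by
    intro w hw
    apply Continuous.intervalIntegrable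
    fun_prop
  have f0 : ∫ x in (0 : ℝ)..1, 1 * F x = M := by
    rw [hF, toF ha hab hb]; simp [hM]
  have f1 : ∫ x in (0 : ℝ)..1, x * F x = S1 := toF ha hab hb _ fun x => x
  have f2 : ∫ x in (0 : ℝ)..1, x ^ 2 * F x = S2 := toF ha hab hb _ fun x => x ^ 2
  have g0 : ∫ x in (0 : ℝ)..1, 1 * exp (-(c * x)) = Am 0 c := by unfold Am; simp
  have g1 : ∫ x in (0 : ℝ)..1, x * exp (-(c * x)) = Am 1 c := by unfold Am; simp
  have g2 : ∫ x in (0 : ℝ)..1, x ^ 2 * exp (-(c * x)) = Am 2 c := rfl
  have key : ∫ x in (0 : ℝ)..1, (F x - lam * exp (-(c * x))) * ((x - x1) * (x - x2)) ≤ 0 := by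
    have h1 : ∫ x in (0 : ℝ)..1, (F x - lam * exp (-(c * x))) * ((x - x1) * (x - x2)) ≤
        ∫ x in (0 : ℝ)..1, (0 : ℝ) := by
      refine intervalIntegral.integral_mono_on zero_le_one ?_ (by simp) fun x _ => hx x
      have := (hFi.sub ((hwe (fun _ => lam) continuous_const))).mul_continuousOn
        (g := fun x => (x - x1) * (x - x2)) (by fun_prop)
      exact this
    simpa using h1
  have e : ∫ x in (0 : ℝ)..1, (F x - lam * exp (-(c * x))) * ((x - x1) * (x - x2)) =
      (S2 - lam * Am 2 c) - (x1 + x2) * (S1 - lam * Am 1 c) + x1 * x2 * (M - lam * Am 0 c) := by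
    rw [← f0, ← f1, ← f2, ← g0, ← g1, ← g2]
    simp only [← intervalIntegral.integral_const_mul]
    have c0 : Continuous fun _ : ℝ => (1 : ℝ) := continuous_const
    have c1 : Continuous fun x : ℝ => x := continuous_id
    have c2 : Continuous fun x : ℝ => x ^ 2 := by fun_prop
    rw [← intervalIntegral.integral_sub (hwF _ c2) ((hwe _ c2).const_mul lam),
      ← intervalIntegral.integral_sub (hwF _ c1) ((hwe _ c1).const_mul lam),
      ← intervalIntegral.integral_sub (hwF _ c0) ((hwe _ c0).const_mul lam),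
      ← intervalIntegral.integral_const_mul, ← intervalIntegral.integral_const_mul,
      ← intervalIntegral.integral_sub ((hwF _ c2).sub ((hwe _ c2).const_mul lam))
        (((hwF _ c1).sub ((hwe _ c1).const_mul lam)).const_mul _),
      ← intervalIntegral.integral_add (((hwF _ c2).sub ((hwe _ c2).const_mul lam)).sub
        (((hwF _ c1).sub ((hwe _ c1).const_mul lam)).const_mul _))
        (((hwF _ c0).sub ((hwe _ c0).const_mul lam)).const_mul _)]
    congr 1
    ext x
    ring
  rw [e, l0, l1, sub_self, sub_self, mul_zero, mul_zero, sub_zero, add_zero] at key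
  have h1 := tilt_var c
  have h2 := mul_le_mul_of_nonneg_left h1 (sq_nonneg lam)
  have h3 : lam ^ 2 * (12 * (Am 0 c * Am 2 c - Am 1 c ^ 2)) = 12 * (M * (lam * Am 2 c) - S1 ^ 2) := by
    rw [← l0, ← l1]; ring
  have h4 : lam ^ 2 * Am 0 c ^ 2 = M ^ 2 := by rw [← l0]; ring
  rw [h3, h4] at h2
  have h5 : M * S2 ≤ M * (lam * Am 2 c) := mul_le_mul_of_nonneg_left (by linarith) hM0
  linarith

end Vale.Agent.P254.Box
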