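import Vale.Agent.P254.Box.Top582
import Vale.Agent.P254.Box.OneVar582

/-! P254/Box: a convex body which fills enough of a parallelepiped satisfies the conjecture
(helper526, helper582). -/

open MeasureTheory Set Matrix

namespace Vale.Agent.P254.Box

open FV

variable {n : ℕ}

theorem simpC_one : simpC 1 = 1 / 12 := by
  unfold simpC
  norm_num

/-- A convex body `K` in a parallelepiped `P` with `|P|² < 12ⁿ L_Δ²ⁿ |K|²`. -/
theorem good {K : Set (Fin n → ℝ)} (hn : 1 ≤ n) (hK : IsConvexBody K)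
    {A : Matrix (Fin n) (Fin n) ℝ} (hA : A.det ≠ 0) {b : Fin n → ℝ}
    (hsub : K ⊆ (fun x => A *ᵥ x + b) '' cube n)
    (hvol : (volume ((fun x => A *ᵥ x + b) '' cube n)).toReal ^ 2 <
      12 ^ n * simpC n * (volume K).toReal ^ 2) : Good K := by
  rcases hn.eq_or_lt with h | h
  · subst h
    exfalso
    have h1 : (volume K).toReal ≤ (volume ((fun x => A *ᵥ x + b) '' cube 1)).toReal :=
      ENNReal.toReal_mono (isCompact_aff_image A b (cube_compact 1)).measure_lt_top.ne
        (measure_mono hsub)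
    have h2 : (0 : ℝ) ≤ (volume K).toReal := ENNReal.toReal_nonneg
    rw [simpC_one] at hvol
    nlinarith
  · exact box_good oneVar h hK hA b hsub hvol

/-- The strict inequality of the conjecture. -/
theorem isoConst_lt' {K S : Set (Fin n → ℝ)} (hn : 2 ≤ n) (hK : IsConvexBody K)
    (hS : IsSimplex S) {A : Matrix (Fin n) (Fin n) ℝ} (hA : A.det ≠ 0) {b : Fin n → ℝ}
    (hsub : K ⊆ (fun x => A *ᵥ x + b) '' cube n)
    (hvol : (volume ((fun x => A *ᵥ x + b) '' cube n)).toReal ^ 2 <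
      12 ^ n * simpC n * (volume K).toReal ^ 2) : isoConst K < isoConst S :=
  isoConst_lt oneVar hn hK hS hA b hsub hvol

/-- For every convex body `K` in a parallelepiped `P`: `L_K²ⁿ ≤ 12⁻ⁿ (|P| / |K|)²`. -/
theorem bound {K : Set (Fin n → ℝ)} (hn : 2 ≤ n) (hK : IsConvexBody K)
    {A : Matrix (Fin n) (Fin n) ℝ} (hA : A.det ≠ 0) {b : Fin n → ℝ}
    (hsub : K ⊆ (fun x => A *ᵥ x + b) '' cube n) :
    (covMatrix K).det / (volume K).toReal ^ 2 ≤ (1 / 12) ^ n *
      ((volume ((fun x => A *ᵥ x + b) '' cube n)).toReal / (volume K).toReal) ^ 2 :=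
  Dn_le oneVar hn hK hA b hsub

end Vale.Agent.P254.Box
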