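import Vale.Agent.P254.Box.Var582
import Mathlib.Analysis.SpecialFunctions.Trigonometric.Series
import Mathlib.Analysis.SpecialFunctions.Integrals.Basic

/-! P254/Box: the one-dimensional lemma `OneVar`, by comparison with the exponential densities
(helper582). -/

open MeasureTheory Set Real

namespace Vale.Agent.P254.Box

/-- moments of the exponential densities on `[0, 1]` -/
noncomputable def Am (j : ℕ) (c : ℝ) : ℝ := ∫ x in (0 : ℝ)..1, x ^ j * exp (-(c * x))

theorem Am_cont (j : ℕ) : Continuous (Am j) := by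
  unfold Am
  refine intervalIntegral.continuous_parametric_intervalIntegral_of_continuous' ?_ 0 1
  simp only [Function.uncurry_def]
  fun_prop

theorem Am0 (c : ℝ) : c * Am 0 c = 1 - exp (-c) := by
  unfold Am
  rw [← intervalIntegral.integral_const_mul]
  have h : ∀ x ∈ uIcc (0 : ℝ) 1, HasDerivAt (fun x => -exp (-(c * x)))
      (c * (x ^ 0 * exp (-(c * x)))) x := by
    intro x _
    have h1 : HasDerivAt (fun x => -(c * x)) (-(c * 1)) x := ((hasDerivAt_id x).const_mul c).neg
    have h2 : HasDerivAt (fun x => -exp (-(c * x))) (-(exp (-(c * x)) * (-(c * 1)))) x :=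
      h1.exp.neg
    refine h2.congr_deriv ?_
    ring
  rw [intervalIntegral.integral_eq_sub_of_hasDerivAt h
    (by apply Continuous.intervalIntegrable; fun_prop)]
  simp
  ring

theorem Am1 (c : ℝ) : c ^ 2 * Am 1 c = 1 - exp (-c) * (1 + c) := by
  unfold Am
  rw [← intervalIntegral.integral_const_mul]
  have h : ∀ x ∈ uIcc (0 : ℝ) 1, HasDerivAt (fun x => -((c * x + 1) * exp (-(c * x))))
      (c ^ 2 * (x ^ 1 * exp (-(c * x)))) x := by
    intro x _
    have h1 : HasDerivAt (fun x => -(c * x)) (-(c * 1)) x := ((hasDerivAt_id x).const_mul c).neg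
    have h0 : HasDerivAt (fun x => c * x + 1) (c * 1) x :=
      ((hasDerivAt_id x).const_mul c).add_const 1
    have h2 : HasDerivAt (fun x => -((c * x + 1) * exp (-(c * x))))
        (-((c * 1) * exp (-(c * x)) + (c * x + 1) * (exp (-(c * x)) * (-(c * 1))))) x :=
      (h0.mul h1.exp).neg
    refine h2.congr_deriv ?_
    ring
  rw [intervalIntegral.integral_eq_sub_of_hasDerivAt h
    (by apply Continuous.intervalIntegrable; fun_prop)]
  simp
  ring

theorem Am2 (c : ℝ) : c ^ 3 * Am 2 c = 2 - exp (-c) * (2 + 2 * c + c ^ 2) := by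
  unfold Am
  rw [← intervalIntegral.integral_const_mul]
  have h : ∀ x ∈ uIcc (0 : ℝ) 1,
      HasDerivAt (fun x => -(((c * x) ^ 2 + 2 * (c * x) + 2) * exp (-(c * x))))
      (c ^ 3 * (x ^ 2 * exp (-(c * x)))) x := by
    intro x _
    have h1 : HasDerivAt (fun x => -(c * x)) (-(c * 1)) x := ((hasDerivAt_id x).const_mul c).neg
    have h3 : HasDerivAt (fun x => c * x) (c * 1) x := (hasDerivAt_id x).const_mul c
    have h0 : HasDerivAt (fun x => (c * x) ^ 2 + 2 * (c * x) + 2)
        ((2 : ℕ) * (c * x) ^ (2 - 1) * (c * 1) + 2 * (c * 1)) x :=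
      ((h3.pow 2).add (h3.const_mul 2)).add_const 2
    have h2 : HasDerivAt (fun x => -(((c * x) ^ 2 + 2 * (c * x) + 2) * exp (-(c * x))))
        (-(((2 : ℕ) * (c * x) ^ (2 - 1) * (c * 1) + 2 * (c * 1)) * exp (-(c * x)) +
          ((c * x) ^ 2 + 2 * (c * x) + 2) * (exp (-(c * x)) * (-(c * 1))))) x :=
      (h0.mul h1.exp).neg
    refine h2.congr_deriv ?_
    push_cast
    ring
  rw [intervalIntegral.integral_eq_sub_of_hasDerivAt h
    (by apply Continuous.intervalIntegrable; fun_prop)]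
  simp
  ring

theorem Am_pos (c : ℝ) : 0 < Am 0 c := by
  unfold Am
  refine intervalIntegral.intervalIntegral_pos_of_pos_on
    (by apply Continuous.intervalIntegrable; fun_prop) (fun x _ => by positivity) one_pos

theorem fact_ge (n : ℕ) (hn : 1 ≤ n) : 12 ^ n ≤ 6 * (2 * n).factorial := by
  induction n, hn using Nat.le_induction with
  | base => decide
  | succ n hn ih =>
    have e : (2 * (n + 1)).factorial = (2 * n + 2) * ((2 * n + 1) * (2 * n).factorial) := by
      rw [show 2 * (n + 1) = 2 * n + 1 + 1 by ring, Nat.factorial_succ, Nat.factorial_succ]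
    rw [e, pow_succ]
    have h1 : 12 ≤ (2 * n + 2) * (2 * n + 1) := by nlinarith
    calc 12 ^ n * 12 ≤ (6 * (2 * n).factorial) * ((2 * n + 2) * (2 * n + 1)) :=
          Nat.mul_le_mul ih h1
      _ = _ := by ring

theorem cosh_le (c : ℝ) : (12 - c ^ 2) * (cosh c - 1) ≤ 6 * c ^ 2 := by
  have h1 : 1 ≤ cosh c := one_le_cosh c
  rcases le_or_gt 12 (c ^ 2) with h | h
  · nlinarith [mul_nonneg (sub_nonneg.2 h) (sub_nonneg.2 h1), sq_nonneg c]
  set r := c ^ 2 / 12 with hr
  have hr0 : 0 ≤ r := by positivity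
  have hr1 : r < 1 := by rw [hr, div_lt_one (by norm_num)]; exact h
  have s1 := hasSum_cosh c
  have s2 : HasSum (fun n : ℕ => 6 * r ^ n - (if n = 0 then 5 else 0)) (6 * (1 - r)⁻¹ - 5) :=
    ((hasSum_geometric_of_lt_one hr0 hr1).mul_left 6).sub (hasSum_ite_eq 0 5)
  have h2 : cosh c ≤ 6 * (1 - r)⁻¹ - 5 := by
    refine hasSum_le (fun n => ?_) s1 s2
    rcases Nat.eq_zero_or_pos n with rfl | hn
    · simp
      norm_num
    · rw [if_neg hn.ne', sub_zero, hr, div_pow, ← pow_mul, ← mul_div_assoc,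
        div_le_div_iff₀ (by positivity) (by positivity)]
      have h3 : (12 : ℝ) ^ n ≤ 6 * ((2 * n).factorial : ℝ) := by exact_mod_cast fact_ge n hn
      have h4 : 0 ≤ c ^ (2 * n) := by rw [pow_mul]; positivity
      nlinarith [mul_le_mul_of_nonneg_left h3 h4]
  have h5 : 0 < 1 - r := by linarith
  have h6 : (1 - r) * (cosh c - 1) ≤ 6 * r := by
    have h7 : (1 - r) * (cosh c - 1) ≤ (1 - r) * (6 * (1 - r)⁻¹ - 5 - 1) :=
      mul_le_mul_of_nonneg_left (by linarith) h5.le
    have h8 : (1 - r) * (6 * (1 - r)⁻¹ - 5 - 1) = 6 * r := by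
      field_simp
      ring
    linarith
  have h9 : 12 - c ^ 2 = 12 * (1 - r) := by rw [hr]; ring
  rw [h9]
  have h10 : c ^ 2 = 12 * r := by rw [hr]; ring
  nlinarith

theorem tilt_var (c : ℝ) : 12 * (Am 0 c * Am 2 c - Am 1 c ^ 2) ≤ Am 0 c ^ 2 := by
  rcases eq_or_ne c 0 with rfl | hc
  · have e : ∀ j : ℕ, Am j 0 = 1 / ((j : ℝ) + 1) := by
      intro j
      unfold Am
      simp
    rw [e, e, e]
    norm_num
  · have hc4 : 0 < c ^ 4 := by positivity
    set q := exp (-c) with hq
    have hq0 : 0 < q := exp_pos _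
    have hqq : exp c * q = 1 := by rw [hq, ← exp_add]; simp
    have hch : cosh c = (exp c + q) / 2 := by rw [cosh_eq]
    have h1 := cosh_le c
    rw [hch] at h1
    have h2 : (12 - c ^ 2) * (1 - q) ^ 2 ≤ 12 * q * c ^ 2 := by
      have h3 := mul_le_mul_of_nonneg_left h1 hq0.le
      have h4 : q * ((12 - c ^ 2) * ((exp c + q) / 2 - 1)) = (12 - c ^ 2) * ((1 - q) ^ 2 / 2) := by
        have : q * ((exp c + q) / 2 - 1) = (1 - q) ^ 2 / 2 := by
          have h5 : q * exp c = 1 := by rw [mul_comm]; exact hqq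
          calc q * ((exp c + q) / 2 - 1) = (q * exp c) / 2 + q ^ 2 / 2 - q := by ring
            _ = _ := by rw [h5]; ring
        calc q * ((12 - c ^ 2) * ((exp c + q) / 2 - 1)) =
            (12 - c ^ 2) * (q * ((exp c + q) / 2 - 1)) := by ring
          _ = _ := by rw [this]
      rw [h4] at h3
      linarith
    have e1 : c ^ 4 * (Am 0 c * Am 2 c - Am 1 c ^ 2) = (1 - q) ^ 2 - q * c ^ 2 := by
      calc c ^ 4 * (Am 0 c * Am 2 c - Am 1 c ^ 2) =
          (c * Am 0 c) * (c ^ 3 * Am 2 c) - (c ^ 2 * Am 1 c) ^ 2 := by ring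
        _ = _ := by rw [Am0, Am1, Am2]; ring
    have e2 : c ^ 4 * Am 0 c ^ 2 = c ^ 2 * (1 - q) ^ 2 := by
      calc c ^ 4 * Am 0 c ^ 2 = c ^ 2 * (c * Am 0 c) ^ 2 := by ring
        _ = _ := by rw [Am0]
    refine le_of_mul_le_mul_left ?_ hc4
    calc c ^ 4 * (12 * (Am 0 c * Am 2 c - Am 1 c ^ 2)) =
        12 * (c ^ 4 * (Am 0 c * Am 2 c - Am 1 c ^ 2)) := by ring
      _ ≤ _ := by rw [e1, e2]; nlinarith

/-- a tilt with a given mean -/
theorem exists_tilt {M S : ℝ} (hS : 0 < S) (hM : S < M) : ∃ c : ℝ, S * Am 0 c = M * Am 1 c := by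
  have hcont : Continuous fun c => S * Am 0 c - M * Am 1 c :=
    (continuous_const.mul (Am_cont 0)).sub (continuous_const.mul (Am_cont 1))
  have hM0 : 0 < M := hS.trans hM
  have h0 : (0 : ℝ) ∈ range fun c => S * Am 0 c - M * Am 1 c := by
    refine mem_range_of_exists_le_of_exists_ge hcont ?_ ?_
    · -- c negative
      set d := M / (M - S) with hd
      have hd0 : 0 < d := div_pos hM0 (sub_pos.2 hM)
      refine ⟨-d, ?_⟩
      have e0 := Am0 (-d)
      have e1 := Am1 (-d)
      rw [neg_neg] at e0 e1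
      have hdM : d * (M - S) = M := by rw [hd]; field_simp [(sub_pos.2 hM).ne']
      have h1 : d ^ 2 * (Am 0 (-d) - Am 1 (-d)) ≤ d * Am 0 (-d) := by nlinarith
      have h2 : d * (Am 0 (-d) - Am 1 (-d)) ≤ Am 0 (-d) := by
        refine le_of_mul_le_mul_left ?_ hd0
        linarith
      have h3 := mul_le_mul_of_nonneg_right h2 (sub_pos.2 hM).le
      have h4 : d * (Am 0 (-d) - Am 1 (-d)) * (M - S) = M * (Am 0 (-d) - Am 1 (-d)) := by
        calc d * (Am 0 (-d) - Am 1 (-d)) * (M - S) =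
            (d * (M - S)) * (Am 0 (-d) - Am 1 (-d)) := by ring
          _ = _ := by rw [hdM]
      rw [h4] at h3
      change S * Am 0 (-d) - M * Am 1 (-d) ≤ 0
      linarith
    · set d := M / S with hd
      have hd0 : 0 < d := div_pos hM0 hS
      refine ⟨d, ?_⟩
      have e0 := Am0 d
      have e1 := Am1 d
      have hdM : d * S = M := by rw [hd]; field_simp
      have hq := exp_pos (-d)
      have h1 : d ^ 2 * Am 1 d ≤ d * Am 0 d := by
        rw [e0, e1]
        nlinarith [mul_pos hq hd0]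
      have h2 : d * Am 1 d ≤ Am 0 d := by
        refine le_of_mul_le_mul_left ?_ hd0
        linarith
      have h3 := mul_le_mul_of_nonneg_right h2 hS.le
      have h4 : d * Am 1 d * S = M * Am 1 d := by
        calc d * Am 1 d * S = (d * S) * Am 1 d := by ring
          _ = _ := by rw [hdM]
      rw [h4] at h3
      change 0 ≤ S * Am 0 d - M * Am 1 d
      linarith
  obtain ⟨c, hc⟩ := h0
  have hc' : S * Am 0 c - M * Am 1 c = 0 := hc
  exact ⟨c, by linarith⟩

end Vale.Agent.P254.Box
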