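import Vale.Agent.P254.Perm.DecApp
import Vale.Agent.P254.Perm.Rearr
import Mathlib.MeasureTheory.Integral.IntervalIntegral.FundThmCalculus

/-!
P254, bodies in a box: the variance of a power of a concave function on an interval of length `b`
is at most `b²/12`.
-/

open MeasureTheory Set Filter Topology

namespace Vale.Agent.P254.Box

open Vale.Agent.P254.Perm.Dec598

variable {g : ℝ → ℝ} {b : ℝ}

/-- right derivative with the two-sided supporting line -/
theorem rd2 (H : Ok g b) {s : ℝ} (hs : s ∈ Ioo 0 b) : ∃ l : ℝ, 0 ≤ l ∧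
    HasDerivWithinAt g (-l) (Ioi s) s ∧ ∀ t ∈ Icc 0 b, g t ≤ g s - l * (t - s) := by
  obtain ⟨l, h0, h1, h2⟩ := H.rd hs
  refine ⟨l, h0, h1, fun t ht => ?_⟩
  rcases le_or_gt s t with hst | hst
  · exact h2 t ⟨hst, ht.2⟩
  have h3 := (hasDerivWithinAt_iff_tendsto_slope' (by simp)).1 h1
  have h4 : ∀ᶠ u in 𝓝[>] s, slope g s u ≤ slope g t s := by
    filter_upwards [Ioo_mem_nhdsGT hs.2] with u hu
    have := H.conc.slope_anti_adjacent ht ⟨(hs.1.trans hu.1).le, hu.2.le⟩ hst hu.1
    rw [slope_def_field, slope_def_field]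
    exact this
  have h5 := le_of_tendsto h3 h4
  rw [slope_def_field, le_div_iff₀ (sub_pos.2 hst)] at h5
  linarith

theorem contMul (H : Ok g b) (k : ℕ) {r : ℝ → ℝ} (hr : Continuous r) (h0 : r 0 = 0)
    (hb : r b = 0) : ContinuousOn (fun t => r t * g t ^ k) (Icc 0 b) := by
  have hbd : ∀ t ∈ Icc 0 b, |g t ^ k| ≤ g 0 ^ k := fun t ht => by
    rw [abs_of_nonneg (pow_nonneg (H.nn t ht) k)]
    exact pow_le_pow_left₀ (H.nn t ht) (H.anti (left_mem_Icc.2 H.hb.le) ht ht.1) k
  have key : ∀ x, r x = 0 → ContinuousWithinAt (fun t => r t * g t ^ k) (Icc 0 b) x := by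
    intro x hx
    unfold ContinuousWithinAt
    simp only [hx, zero_mul]
    have h1 : Tendsto (fun t => |r t| * g 0 ^ k) (𝓝[Icc 0 b] x) (𝓝 0) := by
      have : Tendsto (fun t => |r t| * g 0 ^ k) (𝓝 x) (𝓝 (|r x| * g 0 ^ k)) :=
        ((hr.abs.mul continuous_const).tendsto x)
      rw [hx, abs_zero, zero_mul] at this
      exact this.mono_left nhdsWithin_le_nhds
    refine squeeze_zero_norm' ?_ h1
    filter_upwards [self_mem_nhdsWithin] with t ht
    rw [Real.norm_eq_abs, abs_mul]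
    exact mul_le_mul_of_nonneg_left (hbd t ht) (abs_nonneg _)
  intro x hx
  rcases hx.1.eq_or_lt with h | h
  · exact key x (by rw [← h]; exact h0)
  rcases hx.2.eq_or_lt with h' | h'
  · exact key x (by rw [h']; exact hb)
  · have h3 : ContinuousAt g x := (H.cont).continuousAt (isOpen_Ioo.mem_nhds ⟨h, h'⟩)
    exact (hr.continuousAt.mul (h3.pow k)).continuousWithinAt

/-- lemma A -/
theorem lemA (H : Ok g b) (k : ℕ) {r r' : ℝ → ℝ} (hr : ∀ t, HasDerivAt r (r' t) t)
    (hr' : Continuous r') (h0 : r 0 = 0) (hb : r b = 0) (hnn : ∀ t ∈ Icc 0 b, 0 ≤ r t) :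
    0 ≤ ∫ t in (0 : ℝ)..b, r' t * g t ^ k := by
  have hc : Continuous r := continuous_iff_continuousAt.2 fun t => (hr t).continuousAt
  have hint : IntervalIntegrable (fun t => r' t * g t ^ k) volume 0 b := by
    have h1 : AntitoneOn (fun t => g t ^ k) (uIcc 0 b) := by
      rw [uIcc_of_le H.hb.le]; exact H.anti_pow k
    exact h1.intervalIntegrable.continuousOn_mul hr'.continuousOn
  choose! l hl0 hl1 hl2 using fun s (hs : s ∈ Ioo 0 b) => rd2 H hs
  have h := intervalIntegral.sub_le_integral_of_hasDeriv_right_of_le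
    (g := fun t => r t * g t ^ k)
    (g' := fun t => r' t * g t ^ k + r t * (k * g t ^ (k - 1) * (-l t)))
    (φ := fun t => r' t * g t ^ k) H.hb.le (contMul H k hc h0 hb)
    (fun x hx => ((hr x).hasDerivWithinAt).mul ((hl1 x hx).fun_pow k))
    ((intervalIntegrable_iff_integrableOn_Icc_of_le H.hb.le).1 hint)
    (fun x hx => by
      have h1 : 0 ≤ r x * (k * g x ^ (k - 1) * l x) :=
        mul_nonneg (hnn x (Ioo_subset_Icc_self hx)) (mul_nonneg (mul_nonneg (Nat.cast_nonneg _)
          (pow_nonneg (H.nn x (Ioo_subset_Icc_self hx)) _)) (hl0 x hx))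
      have h2 : r' x * g x ^ k + r x * (k * g x ^ (k - 1) * (-l x))
          = r' x * g x ^ k - r x * (k * g x ^ (k - 1) * l x) := by ring
      rw [h2]
      linarith)
  simpa [h0, hb] using h

/-- lemma B: `r ≥ 0` left of `c`, `r ≤ 0` right of `c`, `∫ r f = 0` imply `∫ r' f ≤ 0` -/
theorem lemB (H : Ok g b) (k : ℕ) (hk : 1 ≤ k) {r r' : ℝ → ℝ} (hr : ∀ t, HasDerivAt r (r' t) t)
    (hr' : Continuous r') (h0 : r 0 = 0) (hb : r b = 0) {c : ℝ} (hcm : c ∈ Ioo 0 b)
    (hl : ∀ t ∈ Icc 0 c, 0 ≤ r t) (hrr : ∀ t ∈ Icc c b, r t ≤ 0)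
    (hz : ∫ t in (0 : ℝ)..b, r t * g t ^ k = 0) :
    ∫ t in (0 : ℝ)..b, r' t * g t ^ k ≤ 0 := by
  have hc : Continuous r := continuous_iff_continuousAt.2 fun t => (hr t).continuousAt
  have h1 : AntitoneOn (fun t => g t ^ k) (uIcc 0 b) := by
    rw [uIcc_of_le H.hb.le]; exact H.anti_pow k
  have hint : IntervalIntegrable (fun t => r' t * g t ^ k) volume 0 b :=
    h1.intervalIntegrable.continuousOn_mul hr'.continuousOn
  have hint2 : IntervalIntegrable (fun t => r t * g t ^ k) volume 0 b :=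
    h1.intervalIntegrable.continuousOn_mul hc.continuousOn
  choose! l hl0 hl1 hl2 using fun s (hs : s ∈ Ioo 0 b) => rd2 H hs
  obtain ⟨m, rfl⟩ : ∃ m, k = m + 1 := ⟨k - 1, by omega⟩
  have hgc : 0 < g c := H.pos ⟨hcm.1.le, hcm.2⟩
  set a0 : ℝ := (m + 1) * l c / g c with ha0
  have hcI := Ioo_subset_Icc_self hcm
  have h := intervalIntegral.integral_le_sub_of_hasDeriv_right_of_le
    (g := fun t => r t * g t ^ (m + 1))
    (g' := fun t => r' t * g t ^ (m + 1) + r t * (((m + 1 : ℕ) : ℝ) * g t ^ (m + 1 - 1) * (-l t)))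
    (φ := fun t => r' t * g t ^ (m + 1) - a0 * (r t * g t ^ (m + 1))) H.hb.le
    (contMul H (m + 1) hc h0 hb)
    (fun x hx => ((hr x).hasDerivWithinAt).mul ((hl1 x hx).fun_pow (m + 1)))
    ((intervalIntegrable_iff_integrableOn_Icc_of_le H.hb.le).1 (hint.sub (hint2.const_mul a0)))
    (fun x hx => by
      have hxI := Ioo_subset_Icc_self hx
      have hgx : 0 < g x := H.pos ⟨hx.1.le, hx.2⟩
      rw [Nat.add_sub_cancel]
      have e : r' x * g x ^ (m + 1) + r x * (((m + 1 : ℕ) : ℝ) * g x ^ m * (-l x))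
          - (r' x * g x ^ (m + 1) - a0 * (r x * g x ^ (m + 1)))
          = (m + 1) * g x ^ m * (r x * (l c * g x - l x * g c)) / g c := by
        rw [ha0]; push_cast; field_simp; ring
      have h3 : 0 ≤ r x * (l c * g x - l x * g c) := by
        rcases le_total x c with hxc | hxc
        · refine mul_nonneg (hl x ⟨hx.1.le, hxc⟩) ?_
          rcases hxc.eq_or_lt with rfl | hlt
          · simp
          have h4 := hl2 x hx c hcI
          have h5 := hl2 c hcm x hxI
          have h6 : l x ≤ l c := by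
            have : (l x - l c) * (c - x) ≤ 0 := by nlinarith
            by_contra hcon
            push Not at hcon
            nlinarith [mul_pos (sub_pos.2 hcon) (sub_pos.2 hlt)]
          have h7 : g c ≤ g x := H.anti hxI hcI hlt.le
          nlinarith [mul_le_mul h6 h7 hgc.le (hl0 c hcm)]
        · rcases hxc.eq_or_lt with rfl | hlt
          · simp
          have h4 := hl2 x hx c hcI
          have h5 := hl2 c hcm x hxI
          have h6 : l c ≤ l x := by
            by_contra hcon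
            push Not at hcon
            nlinarith [mul_pos (sub_pos.2 hcon) (sub_pos.2 hlt)]
          have h7 : g x ≤ g c := H.anti hcI hxI hlt.le
          have h8 : l c * g x - l x * g c ≤ 0 := by
            nlinarith [mul_le_mul h6 h7 hgx.le (hl0 x hx)]
          exact mul_nonneg_of_nonpos_of_nonpos (hrr x ⟨hlt.le, hx.2.le⟩) h8
      have h4 : 0 ≤ (m + 1) * g x ^ m * (r x * (l c * g x - l x * g c)) / g c := by
        positivity
      linarith)
  rw [intervalIntegral.integral_sub hint (hint2.const_mul a0), intervalIntegral.integral_const_mul,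
    hz, mul_zero, sub_zero] at h
  simpa [h0, hb] using h

/-- variance bound for decreasing concave functions -/
theorem var_dec (H : Ok g b) (k : ℕ) (hk : 1 ≤ k) :
    (∫ t in (0 : ℝ)..b, g t ^ k) * (∫ t in (0 : ℝ)..b, t ^ 2 * g t ^ k) -
        (∫ t in (0 : ℝ)..b, t * g t ^ k) ^ 2 ≤ b ^ 2 / 12 * (∫ t in (0 : ℝ)..b, g t ^ k) ^ 2 := by
  have hb := H.hb
  have h1 : AntitoneOn (fun t => g t ^ k) (uIcc 0 b) := by
    rw [uIcc_of_le H.hb.le]; exact H.anti_pow k
  have ii : ∀ j : ℕ, IntervalIntegrable (fun t => t ^ j * g t ^ k) volume 0 b := fun j =>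
    h1.intervalIntegrable.continuousOn_mul (by fun_prop)
  have i0 : IntervalIntegrable (fun t => g t ^ k) volume 0 b := h1.intervalIntegrable
  have i1 : IntervalIntegrable (fun t => t * g t ^ k) volume 0 b := by simpa using ii 1
  have i2 := ii 2
  have i3 := ii 3
  set M := ∫ t in (0 : ℝ)..b, g t ^ k with hM
  set S1 := ∫ t in (0 : ℝ)..b, t * g t ^ k with hS1
  set S2 := ∫ t in (0 : ℝ)..b, t ^ 2 * g t ^ k with hS2
  set S3 := ∫ t in (0 : ℝ)..b, t ^ 3 * g t ^ k with hS3
  -- cubic weights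
  have lin : ∀ c0 c1 c2 c3 : ℝ, ∫ t in (0 : ℝ)..b, (c0 + c1 * t + c2 * t ^ 2 + c3 * t ^ 3) * g t ^ k
      = c0 * M + c1 * S1 + c2 * S2 + c3 * S3 := by
    intro c0 c1 c2 c3
    have e : ∀ t : ℝ, (c0 + c1 * t + c2 * t ^ 2 + c3 * t ^ 3) * g t ^ k
        = c0 * g t ^ k + c1 * (t * g t ^ k) + c2 * (t ^ 2 * g t ^ k) + c3 * (t ^ 3 * g t ^ k) := by
      intro t; ring
    simp_rw [e]
    rw [intervalIntegral.integral_add (((i0.const_mul c0).add (i1.const_mul c1)).add
      (i2.const_mul c2)) (i3.const_mul c3), intervalIntegral.integral_add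
      ((i0.const_mul c0).add (i1.const_mul c1)) (i2.const_mul c2),
      intervalIntegral.integral_add (i0.const_mul c0) (i1.const_mul c1)]
    simp only [intervalIntegral.integral_const_mul]
    rw [← hM, ← hS1, ← hS2, ← hS3]
  have gpos : ∀ t ∈ Ioo 0 b, 0 < g t ^ k := fun t ht => pow_pos (H.pos ⟨ht.1.le, ht.2⟩) k
  have Mpos : 0 < M := intervalIntegral.intervalIntegral_pos_of_pos_on i0 gpos hb
  have S1pos : 0 < S1 := intervalIntegral.intervalIntegral_pos_of_pos_on i1
    (fun t ht => mul_pos ht.1 (gpos t ht)) hb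
  have D : 0 < b * S1 - S2 := by
    have h2 := lin 0 b (-1) 0
    have h3 : 0 < ∫ t in (0 : ℝ)..b, (0 + b * t + -1 * t ^ 2 + 0 * t ^ 3) * g t ^ k := by
      refine intervalIntegral.intervalIntegral_pos_of_pos_on ?_ (fun t ht => ?_) hb
      · exact h1.intervalIntegrable.continuousOn_mul (by fun_prop)
      · refine mul_pos ?_ (gpos t ht)
        have := mul_pos ht.1 (sub_pos.2 ht.2)
        nlinarith
    rw [h2] at h3
    linarith
  -- mean at most b/2
  have hmean : 0 ≤ b * M - 2 * S1 := by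
    have h2 := lemA H k (r := fun t => t * (b - t)) (r' := fun t => b + -2 * t + 0 * t ^ 2 + 0 * t ^ 3)
      (fun t => by
        have := (hasDerivAt_id t).mul ((hasDerivAt_id t).const_sub b)
        refine this.congr_deriv ?_
        simp; ring) (by fun_prop) (by simp) (by simp)
      (fun t ht => mul_nonneg ht.1 (sub_nonneg.2 ht.2))
    have h3 := lin b (-2) 0 0
    rw [h3] at h2
    linarith
  -- (I2)
  set T : ℝ := 2 * S1 / M with hT
  have hTM : T * M = 2 * S1 := by rw [hT]; field_simp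
  have hT0 : 0 ≤ T := by rw [hT]; positivity
  have hTb : T ≤ b := by rw [hT, div_le_iff₀ Mpos]; linarith
  have I2 : 0 ≤ T * b ^ 2 * M - 6 * T * b * S1 + 6 * (b + T) * S2 - 8 * S3 := by
    have h2 := lemA H k (r := fun t => t * (b - t) * (T * b - 2 * T * t + 2 * t ^ 2))
      (r' := fun t => T * b ^ 2 + -(6 * T * b) * t + (6 * (b + T)) * t ^ 2 + (-8) * t ^ 3)
      (fun t => by
        have hq : HasDerivAt (fun t : ℝ => T * b - 2 * T * t + 2 * t ^ 2)
            (-(2 * T) + 2 * (2 * t)) t := by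
          have e1 := ((hasDerivAt_id t).const_mul (2 * T)).const_sub (T * b)
          have e2 := ((hasDerivAt_id t).pow 2).const_mul 2
          refine (e1.add e2).congr_deriv ?_
          simp
        have := ((hasDerivAt_id t).mul ((hasDerivAt_id t).const_sub b)).mul hq
        refine this.congr_deriv ?_
        simp; ring) (by fun_prop) (by simp) (by simp)
      (fun t ht => by
        refine mul_nonneg (mul_nonneg ht.1 (sub_nonneg.2 ht.2)) ?_
        -- linear in T on [0,b]
        have e : b * (T * b - 2 * T * t + 2 * t ^ 2)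
            = (b - T) * (2 * t ^ 2) + T * ((b - t) ^ 2 + t ^ 2) := by ring
        have h3 : 0 ≤ b * (T * b - 2 * T * t + 2 * t ^ 2) := by
          rw [e]
          have := sub_nonneg.2 hTb
          positivity
        exact nonneg_of_mul_nonneg_right h3 hb)
    have h3 := lin (T * b ^ 2) (-(6 * T * b)) (6 * (b + T)) (-8)
    rw [h3] at h2
    linarith
  -- (I1)
  have S3lt : S3 < b * S2 := by
    have h2 := lin 0 0 b (-1)
    have h3 : 0 < ∫ t in (0 : ℝ)..b, (0 + 0 * t + b * t ^ 2 + -1 * t ^ 3) * g t ^ k := by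
      refine intervalIntegral.intervalIntegral_pos_of_pos_on ?_ (fun t ht => ?_) hb
      · exact h1.intervalIntegrable.continuousOn_mul (by fun_prop)
      · refine mul_pos ?_ (gpos t ht)
        have := mul_pos (mul_pos ht.1 ht.1) (sub_pos.2 ht.2)
        nlinarith
    rw [h2] at h3
    linarith
  have Sq : 0 < b ^ 2 * S1 - 2 * b * S2 + S3 := by
    have h2 := lin 0 (b ^ 2) (-(2 * b)) 1
    have h3 : 0 < ∫ t in (0 : ℝ)..b, (0 + b ^ 2 * t + -(2 * b) * t ^ 2 + 1 * t ^ 3) * g t ^ k := by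
      refine intervalIntegral.intervalIntegral_pos_of_pos_on ?_ (fun t ht => ?_) hb
      · exact h1.intervalIntegrable.continuousOn_mul (by fun_prop)
      · refine mul_pos ?_ (gpos t ht)
        have := mul_pos (mul_pos ht.1 (sub_pos.2 ht.2)) (sub_pos.2 ht.2)
        nlinarith
    rw [h2] at h3
    linarith
  set c : ℝ := (b * S2 - S3) / (b * S1 - S2) with hc
  have hcD : c * (b * S1 - S2) = b * S2 - S3 := by rw [hc]; field_simp
  have hc0 : 0 < c := div_pos (by linarith) D
  have hcb : c < b := by rw [hc, div_lt_iff₀ D]; nlinarith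
  have I1 : b * c * M - 2 * (b + c) * S1 + 3 * S2 ≤ 0 := by
    have h2 := lemB H k hk (r := fun t => t * (b - t) * (c - t))
      (r' := fun t => b * c + (-(2 * (b + c))) * t + 3 * t ^ 2 + 0 * t ^ 3)
      (fun t => by
        have := ((hasDerivAt_id t).mul ((hasDerivAt_id t).const_sub b)).mul
          ((hasDerivAt_id t).const_sub c)
        refine this.congr_deriv ?_
        simp; ring) (by fun_prop) (by simp) (by simp) (c := c) ⟨hc0, hcb⟩
      (fun t ht => mul_nonneg (mul_nonneg ht.1 (by linarith [ht.2])) (sub_nonneg.2 ht.2))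
      (fun t ht => mul_nonpos_of_nonneg_of_nonpos (mul_nonneg (by linarith [ht.1])
        (sub_nonneg.2 ht.2)) (sub_nonpos.2 ht.1))
      (by
        have h3 := lin 0 (b * c) (-(b + c)) 1
        have e : ∀ t : ℝ, t * (b - t) * (c - t) * g t ^ k
            = (0 + b * c * t + -(b + c) * t ^ 2 + 1 * t ^ 3) * g t ^ k := by intro t; ring
        simp_rw [e]
        rw [h3]
        linear_combination hcD)
    have h3 := lin (b * c) (-(2 * (b + c))) 3 0
    rw [h3] at h2
    linarith
  -- algebra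
  have J1 : (b * S2 - S3) * (b * M - 2 * S1) + (3 * S2 - 2 * b * S1) * (b * S1 - S2) ≤ 0 := by
    have := mul_nonpos_of_nonneg_of_nonpos D.le I1
    have e : (b * S1 - S2) * (b * c * M - 2 * (b + c) * S1 + 3 * S2)
        = (b * S2 - S3) * (b * M - 2 * S1) + (3 * S2 - 2 * b * S1) * (b * S1 - S2) := by
      rw [← hcD]; ring
    linarith
  have J2 : (b * S1 - S2) * (6 * S1 - b * M) ≤ 4 * M * (b * S2 - S3) := by
    have h2 := mul_nonneg Mpos.le I2
    have e : M * (T * b ^ 2 * M - 6 * T * b * S1 + 6 * (b + T) * S2 - 8 * S3)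
        = (T * M) * (b ^ 2 * M) - 6 * (T * M) * b * S1 + 6 * b * M * S2 + 6 * (T * M) * S2
          - 8 * M * S3 := by ring
    rw [e, hTM] at h2
    nlinarith
  have J3 : (b * S1 - S2) * ((b * M - 2 * S1) * (6 * S1 - b * M) + 4 * M * (3 * S2 - 2 * b * S1))
      ≤ 0 := by
    have h2 := mul_le_mul_of_nonneg_left J2 hmean
    have h3 := mul_nonpos_of_nonneg_of_nonpos (mul_nonneg (by norm_num : (0:ℝ) ≤ 4) Mpos.le) J1
    nlinarith
  have J4 : (b * M - 2 * S1) * (6 * S1 - b * M) + 4 * M * (3 * S2 - 2 * b * S1) ≤ 0 := by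
    by_contra hcon
    push Not at hcon
    exact absurd (mul_pos D hcon) (not_lt.2 J3)
  nlinarith

/-- variance bound for powers of concave functions -/
theorem var_conc (k : ℕ) (hk : 1 ≤ k) {a b : ℝ} (hab : a ≤ b) {g : ℝ → ℝ}
    (hconc : ConcaveOn ℝ (Icc a b) g) (hpos : ∀ s ∈ Icc a b, 0 ≤ g s) :
    (∫ t in a..b, g t ^ k) * (∫ t in a..b, t ^ 2 * g t ^ k) - (∫ t in a..b, t * g t ^ k) ^ 2 ≤
      (b - a) ^ 2 / 12 * (∫ t in a..b, g t ^ k) ^ 2 := by
  rcases hab.eq_or_lt with rfl | hab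
  · simp
  obtain ⟨h, h1, h2, h3, h4, -, h6⟩ := Vale.Agent.P254.Perm.rearr k hk hab hconc hpos
  refine h6.trans ?_
  rw [← h4]
  have hB : 0 < b - a := sub_pos.2 hab
  rcases (h3 0 (left_mem_Icc.2 hB.le)).eq_or_lt with h0 | h0
  · have hz : ∀ t ∈ Icc 0 (b - a), h t = 0 := fun t ht =>
      le_antisymm ((h2 (left_mem_Icc.2 hB.le) ht ht.1).trans h0.symm.le) (h3 t ht)
    have e : ∀ w : ℝ → ℝ, ∫ t in (0 : ℝ)..(b - a), w t * h t ^ k = 0 := by
      intro w
      rw [intervalIntegral.integral_congr (g := fun _ => (0 : ℝ)) (fun t ht => by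
        rw [uIcc_of_le hB.le] at ht
        simp [hz t ht, show k ≠ 0 by omega])]
      simp
    have e0 : ∫ t in (0 : ℝ)..(b - a), h t ^ k = 0 := by simpa using e (fun _ => 1)
    rw [e0, e (fun t => t)]
    simp
  · exact var_dec ⟨hB, h1, h2, h3, h0⟩ k hk

end Vale.Agent.P254.Box
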