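import Vale.Agent.P254.Perm.Sec956
import Mathlib.Analysis.Convex.Continuous

/-! P254/Box, leaf B: `Var xᵢ ≤ 1/12` for a convex body in the unit cube (helper582). -/

open MeasureTheory Set

namespace Vale.Agent.P254.Box

/-- The one-dimensional inequality: a density `g ^ k`, `g` concave, on an interval in `[0, 1]` has
variance at most `1 / 12`. -/
def OneVar : Prop :=
  ∀ (k : ℕ), 1 ≤ k → ∀ (a b : ℝ), 0 ≤ a → a ≤ b → b ≤ 1 → ∀ g : ℝ → ℝ, ConcaveOn ℝ (Icc a b) g →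
    (∀ s ∈ Icc a b, 0 ≤ g s) →
    12 * ((∫ t in a..b, g t ^ k) * (∫ t in a..b, t ^ 2 * g t ^ k) -
      (∫ t in a..b, t * g t ^ k) ^ 2) ≤ (∫ t in a..b, g t ^ k) ^ 2

variable {m : ℕ}

theorem fub {L : Set (ℝ × (Fin m → ℝ))} (hL : IsCompact L) {f : ℝ → ℝ} (hf : Continuous f) :
    ∫ p in L, f p.1 = ∫ s, f s * (volume {y : Fin m → ℝ | (s, y) ∈ L}).toReal := by
  have hi : Integrable (L.indicator fun p => f p.1) :=
    (integrable_indicator_iff hL.measurableSet).2
      ((by fun_prop : Continuous fun p : ℝ × (Fin m → ℝ) => f p.1).continuousOn.integrableOn_compact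
        hL)
  have key : ∀ s, ∫ y, L.indicator (fun p => f p.1) (s, y) =
      f s * (volume {y : Fin m → ℝ | (s, y) ∈ L}).toReal := by
    intro s
    have h1 : ∫ y in {y : Fin m → ℝ | (s, y) ∈ L}, f s =
        ∫ y, L.indicator (fun p => f p.1) (s, y) := by
      rw [← integral_indicator (Perm.sec_compact hL s).measurableSet]
      rfl
    rw [← h1, setIntegral_const, smul_eq_mul, mul_comm]
    rfl
  rw [Measure.volume_eq_prod] at hi
  rw [← integral_indicator hL.measurableSet, Measure.volume_eq_prod, integral_prod _ hi]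
  simp only [key]

theorem toI {a b : ℝ} (hab : a ≤ b) {F G : ℝ → ℝ} (h0 : ∀ s ∉ Icc a b, F s = 0)
    (h1 : ∀ s ∈ Icc a b, F s = G s) : ∫ s, F s = ∫ s in a..b, G s := by
  rw [← setIntegral_eq_integral_of_forall_compl_eq_zero (s := Icc a b) h0,
    setIntegral_congr_fun measurableSet_Icc h1, integral_Icc_eq_integral_Ioc,
    ← intervalIntegral.integral_of_le hab]

theorem var_prod (hOne : OneVar) (hm : 1 ≤ m) {L : Set (ℝ × (Fin m → ℝ))} (hc : Convex ℝ L)
    (hL : IsCompact L) (hsub : ∀ p ∈ L, 0 ≤ p.1 ∧ p.1 ≤ 1) :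
    12 * ((∫ _p in L, (1 : ℝ)) * (∫ p in L, p.1 ^ 2) - (∫ p in L, p.1) ^ 2) ≤
      (∫ _p in L, (1 : ℝ)) ^ 2 := by
  rcases L.eq_empty_or_nonempty with rfl | hne
  · simp
  obtain ⟨a, b, g, hab, hconc, hpos, hg, hout⟩ := Perm.sec m hm hc hL hne
  have hne2 : ∃ s, s ∈ Icc a b ∧ 0 ≤ s ∧ s ≤ 1 := by
    obtain ⟨⟨s, y⟩, hp⟩ := hne
    refine ⟨s, ?_, hsub _ hp⟩
    by_contra hs
    have := hout s hs
    have h2 : y ∈ {y : Fin m → ℝ | (s, y) ∈ L} := hp
    rw [this] at h2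
    exact h2
  obtain ⟨s0, hs0, hs1, hs2⟩ := hne2
  set a' := max a 0 with ha'
  set b' := min b 1 with hb'
  have hab' : a' ≤ b' := by
    refine (?_ : a' ≤ s0).trans (?_ : s0 ≤ b')
    · exact max_le hs0.1 hs1
    · exact le_min hs0.2 hs2
  have hsubI : Icc a' b' ⊆ Icc a b := Icc_subset_Icc (le_max_left _ _) (min_le_left _ _)
  have hout' : ∀ s ∉ Icc a' b', {y : Fin m → ℝ | (s, y) ∈ L} = ∅ := by
    intro s hs
    by_cases h1 : s ∈ Icc a b
    · rw [eq_empty_iff_forall_notMem]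
      intro y hy
      obtain ⟨h2, h3⟩ := hsub _ hy
      exact hs ⟨max_le h1.1 h2, le_min h1.2 h3⟩
    · exact hout s h1
  have hfub : ∀ f : ℝ → ℝ, Continuous f → ∫ p in L, f p.1 = ∫ s in a'..b', f s * g s ^ m := by
    intro f hf
    rw [fub hL hf]
    refine toI hab' (fun s hs => ?_) fun s hs => ?_
    · rw [hout' s hs]; simp
    · rw [hg s (hsubI hs)]
  have e0 := hfub (fun _ => 1) continuous_const
  have e1 := hfub (fun s => s) continuous_id
  have e2 := hfub (fun s => s ^ 2) (by fun_prop)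
  simp only [one_mul] at e0
  rw [e0, e1, e2]
  exact hOne m hm a' b' (le_max_right _ _) hab' (min_le_right _ _) g
    (hconc.subset hsubI (convex_Icc _ _)) fun s hs => hpos s (hsubI hs)

theorem var_le (hOne : OneVar) (hm : 1 ≤ m) {K : Set (Fin (m + 1) → ℝ)} (hK : IsConvexBody K)
    (hsub : ∀ x ∈ K, ∀ i, 0 ≤ x i ∧ x i ≤ 1) (i : Fin (m + 1)) : covMatrix K i i ≤ 1 / 12 := by
  obtain ⟨hc, hcomp, hint⟩ := hK
  set e := MeasurableEquiv.piFinSuccAbove (fun _ : Fin (m + 1) => ℝ) i with he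
  have hmp : MeasurePreserving e volume volume :=
    volume_preserving_piFinSuccAbove (fun _ : Fin (m + 1) => ℝ) i
  have heq : ∀ x : Fin (m + 1) → ℝ, e x = (x i, fun j => x (i.succAbove j)) := fun x => rfl
  have hcont : Continuous e := by
    have : (e : (Fin (m + 1) → ℝ) → ℝ × (Fin m → ℝ)) =
      fun x => (x i, fun j => x (i.succAbove j)) := funext heq
    rw [this]
    fun_prop
  have hL : IsCompact (e '' K) := hcomp.image hcont
  have hLc : Convex ℝ (e '' K) := by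
    rintro _ ⟨x, hx, rfl⟩ _ ⟨y, hy, rfl⟩ α β hα hβ hαβ
    refine ⟨α • x + β • y, hc hx hy hα hβ hαβ, ?_⟩
    simp only [heq]
    ext
    · simp
    · simp
  have hLs : ∀ p ∈ e '' K, 0 ≤ p.1 ∧ p.1 ≤ 1 := by
    rintro _ ⟨x, hx, rfl⟩
    exact hsub x hx i
  have htr : ∀ f : ℝ → ℝ, ∫ p in e '' K, f p.1 = ∫ x in K, f (x i) := by
    intro f
    rw [← hmp.setIntegral_preimage_emb e.measurableEmbedding (fun p => f p.1) (e '' K),
      preimage_image_eq _ e.injective]
    rfl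
  have h1 := var_prod hOne hm hLc hL hLs
  have t0 : ∫ p in e '' K, (1 : ℝ) = ∫ x in K, (1 : ℝ) := htr fun _ => 1
  have t1 : ∫ p in e '' K, p.1 = ∫ x in K, x i := htr fun s => s
  have t2 : ∫ p in e '' K, p.1 ^ 2 = ∫ x in K, x i ^ 2 := htr fun s => s ^ 2
  rw [t0, t1, t2] at h1
  have hV : 0 < (volume K).toReal := by
    refine ENNReal.toReal_pos (fun h => ?_) hcomp.measure_lt_top.ne
    have := isOpen_interior.measure_pos volume hint
    rw [measure_mono_null interior_subset h] at this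
    exact lt_irrefl _ this
  have hV1 : ∫ x in K, (1 : ℝ) = (volume K).toReal := by simp [Measure.real]
  rw [hV1] at h1
  set V := (volume K).toReal with hVd
  set M1 := ∫ x in K, x i with hM1
  set M2 := ∫ x in K, x i ^ 2 with hM2
  have hi1 : IntegrableOn (fun x : Fin (m + 1) → ℝ => x i) K :=
    (continuous_apply i).continuousOn.integrableOn_compact hcomp
  have hi2 : IntegrableOn (fun x : Fin (m + 1) → ℝ => x i ^ 2) K :=
    ((continuous_apply i).pow 2).continuousOn.integrableOn_compact hcomp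
  have hi0 : ∀ c : ℝ, IntegrableOn (fun _ : Fin (m + 1) → ℝ => c) K := fun c =>
    continuous_const.continuousOn.integrableOn_compact hcomp
  have hcov : covMatrix K i i = V⁻¹ * (M2 - 2 * (V⁻¹ * M1) * M1 + (V⁻¹ * M1) ^ 2 * V) := by
    unfold covMatrix centroid
    rw [← hVd, ← hM1]
    congr 1
    have h2 : ∀ x : Fin (m + 1) → ℝ, (x i - V⁻¹ * M1) * (x i - V⁻¹ * M1) =
        (x i ^ 2 + (-(2 * (V⁻¹ * M1))) * x i) + (V⁻¹ * M1) ^ 2 := fun x => by ring
    simp only [h2]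
    have h3 : ∫ x in K, ((x i ^ 2 + (-(2 * (V⁻¹ * M1))) * x i) + (V⁻¹ * M1) ^ 2) =
        (∫ x in K, (x i ^ 2 + (-(2 * (V⁻¹ * M1))) * x i)) + ∫ x in K, (V⁻¹ * M1) ^ 2 :=
      integral_add (hi2.add (hi1.const_mul _)) (hi0 _)
    have h4 : ∫ x in K, (x i ^ 2 + (-(2 * (V⁻¹ * M1))) * x i) =
        (∫ x in K, x i ^ 2) + ∫ x in K, (-(2 * (V⁻¹ * M1))) * x i :=
      integral_add hi2 (hi1.const_mul _)
    rw [h3, h4, integral_const_mul, setIntegral_const, smul_eq_mul, Measure.real, ← hVd, ← hM1,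
      ← hM2]
    ring
  rw [hcov]
  have h5 : V⁻¹ * (M2 - 2 * (V⁻¹ * M1) * M1 + (V⁻¹ * M1) ^ 2 * V) =
      (V * M2 - M1 ^ 2) / V ^ 2 := by
    field_simp
    ring
  rw [h5, div_le_div_iff₀ (by positivity) (by norm_num)]
  linarith

end Vale.Agent.P254.Box
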