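import Vale.Agent.P254.FV.Good
import Vale.Agent.P254.Box.Var582

/-! P254/Box, leaf C: convex bodies which fill enough of a parallelepiped (helper582). -/

open MeasureTheory Set Matrix

namespace Vale.Agent.P254.Box

open FV

variable {n : ℕ}

/-- The unit cube. -/
def cube (n : ℕ) : Set (Fin n → ℝ) := {x | ∀ i, 0 ≤ x i ∧ x i ≤ 1}

theorem cube_eq (n : ℕ) : cube n = Icc 0 1 := by
  ext x
  simp only [cube, Set.mem_Icc, Pi.le_def]
  exact ⟨fun h => ⟨fun i => (h i).1, fun i => (h i).2⟩, fun h i => ⟨h.1 i, h.2 i⟩⟩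

theorem cube_compact (n : ℕ) : IsCompact (cube n) := by
  rw [cube_eq]
  exact isCompact_Icc

theorem vol_cube (n : ℕ) : (volume (cube n)).toReal = 1 := by
  rw [cube_eq, Real.volume_Icc_pi_toReal (fun i => by simp)]
  simp

theorem det_le_cube (hOne : OneVar) (hn : 2 ≤ n) {K : Set (Fin n → ℝ)} (hK : IsConvexBody K)
    (hsub : K ⊆ cube n) : (covMatrix K).det ≤ (1 / 12) ^ n := by
  have h1 := det_le_trace_pow (by omega : 0 < n) (covMatrix_posSemidef hK.2.1)
  refine h1.trans ?_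
  have hn' : (0 : ℝ) < n := by exact_mod_cast (by omega : 0 < n)
  have h2 : (covMatrix K).trace ≤ n * (1 / 12) := by
    obtain ⟨m, rfl⟩ : ∃ m, n = m + 1 := ⟨n - 1, by omega⟩
    have h3 : ∀ i, covMatrix K i i ≤ 1 / 12 := fun i =>
      var_le hOne (by omega) hK (fun x hx j => hsub hx j) i
    calc (covMatrix K).trace = ∑ i, covMatrix K i i := rfl
      _ ≤ ∑ _i : Fin (m + 1), (1 / 12 : ℝ) := Finset.sum_le_sum fun i _ => h3 i
      _ = _ := by simp
  have h0 : 0 ≤ (covMatrix K).trace := (covMatrix_posSemidef hK.2.1).trace_nonneg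
  refine pow_le_pow_left₀ (div_nonneg h0 hn'.le) ?_ n
  rw [div_le_iff₀ hn']
  linarith

/-- `L_K ^ (2 n) ≤ 12 ^ (-n) (|P| / |K|) ^ 2` for a convex body `K` in a parallelepiped `P`. -/
theorem Dn_le (hOne : OneVar) (hn : 2 ≤ n) {K : Set (Fin n → ℝ)} (hK : IsConvexBody K)
    {A : Matrix (Fin n) (Fin n) ℝ} (hA : A.det ≠ 0) (b : Fin n → ℝ)
    (hsub : K ⊆ (fun x => A *ᵥ x + b) '' cube n) :
    Dn K ≤ (1 / 12) ^ n *
      ((volume ((fun x => A *ᵥ x + b) '' cube n)).toReal / (volume K).toReal) ^ 2 := by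
  have hV := vol_pos hK
  set K0 : Set (Fin n → ℝ) := (aff A b) ⁻¹' K with hK0
  have e1 : aff A b '' K0 = K := by
    refine image_preimage_eq_of_subset ?_
    intro x hx
    obtain ⟨y, _, hy⟩ := hsub hx
    exact ⟨y, hy⟩
  have hcube : K0 ⊆ cube n := by
    intro x hx
    obtain ⟨y, hy, hxy⟩ := hsub hx
    have : y = x := aff_injective hA b hxy
    exact this ▸ hy
  have hcomp : IsCompact K0 :=
    (cube_compact n).of_isClosed_subset (hK.2.1.isClosed.preimage (continuous_aff A b)) hcube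
  have hconv : Convex ℝ K0 := by
    have h : K0 = (affMap A b) ⁻¹' K := by
      rw [hK0, ← coe_affMap]
    rw [h]
    exact hK.1.affine_preimage _
  have hvol : (volume K).toReal = |A.det| * (volume K0).toReal := by
    rw [← volume_aff_image hA b hcomp.measurableSet, e1]
  have hV0 : (volume K0).toReal ≠ 0 := by
    intro h
    rw [h, mul_zero] at hvol
    exact hV.ne' hvol
  have hb := body_of_vol hconv hcomp hV0
  have hP : (volume ((fun x => A *ᵥ x + b) '' cube n)).toReal = |A.det| := by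
    have h := volume_aff_image hA b (cube_compact n).measurableSet
    rw [vol_cube, mul_one] at h
    exact h
  have hD : Dn K = Dn K0 := by
    conv_lhs => rw [← e1]
    unfold Dn
    rw [cov_aff_image hA b hcomp hV0, volume_aff_image hA b hcomp.measurableSet,
      det_mul, det_mul, det_transpose, mul_pow, sq_abs]
    field_simp
  have hA' : 0 < |A.det| := abs_pos.2 hA
  have hV0' : 0 < (volume K0).toReal := lt_of_le_of_ne ENNReal.toReal_nonneg (Ne.symm hV0)
  rw [hD, hP, hvol]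
  have h1 : |A.det| / (|A.det| * (volume K0).toReal) = 1 / (volume K0).toReal := by
    field_simp
  rw [h1]
  unfold Dn
  have h2 : (1 / 12 : ℝ) ^ n * (1 / (volume K0).toReal) ^ 2 =
      (1 / 12 : ℝ) ^ n / (volume K0).toReal ^ 2 := by
    rw [div_pow (1 : ℝ) (volume K0).toReal 2]
    ring
  rw [h2]
  exact div_le_div_of_nonneg_right (det_le_cube hOne hn hb hcube) (by positivity)

/-- `K ⊆ P`, `|P| ^ 2 < 12 ^ n c_n |K| ^ 2`: strict inequality in the conjecture. -/
theorem Dn_lt (hOne : OneVar) (hn : 2 ≤ n) {K : Set (Fin n → ℝ)} (hK : IsConvexBody K)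
    {A : Matrix (Fin n) (Fin n) ℝ} (hA : A.det ≠ 0) (b : Fin n → ℝ)
    (hsub : K ⊆ (fun x => A *ᵥ x + b) '' cube n)
    (hvol : (volume ((fun x => A *ᵥ x + b) '' cube n)).toReal ^ 2 <
      12 ^ n * simpC n * (volume K).toReal ^ 2) : Dn K < simpC n := by
  have hV := vol_pos hK
  refine (Dn_le hOne hn hK hA b hsub).trans_lt ?_
  have h12 : (0 : ℝ) < 12 ^ n := by positivity
  have h2 : (1 / 12 : ℝ) ^ n *
      ((volume ((fun x => A *ᵥ x + b) '' cube n)).toReal / (volume K).toReal) ^ 2 =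
      (volume ((fun x => A *ᵥ x + b) '' cube n)).toReal ^ 2 /
        (12 ^ n * (volume K).toReal ^ 2) := by
    rw [div_pow, div_pow, one_pow]
    field_simp
  rw [h2, div_lt_iff₀ (by positivity)]
  linarith

theorem box_good (hOne : OneVar) (hn : 2 ≤ n) {K : Set (Fin n → ℝ)} (hK : IsConvexBody K)
    {A : Matrix (Fin n) (Fin n) ℝ} (hA : A.det ≠ 0) (b : Fin n → ℝ)
    (hsub : K ⊆ (fun x => A *ᵥ x + b) '' cube n)
    (hvol : (volume ((fun x => A *ᵥ x + b) '' cube n)).toReal ^ 2 <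
      12 ^ n * simpC n * (volume K).toReal ^ 2) : Good K := by
  have h := Dn_lt hOne hn hK hA b hsub hvol
  exact ⟨by omega, hK, h.le, fun h' => absurd h' h.ne⟩

theorem isoConst_lt (hOne : OneVar) (hn : 2 ≤ n) {K S : Set (Fin n → ℝ)} (hK : IsConvexBody K)
    (hS : IsSimplex S) {A : Matrix (Fin n) (Fin n) ℝ} (hA : A.det ≠ 0) (b : Fin n → ℝ)
    (hsub : K ⊆ (fun x => A *ᵥ x + b) '' cube n)
    (hvol : (volume ((fun x => A *ᵥ x + b) '' cube n)).toReal ^ 2 <
      12 ^ n * simpC n * (volume K).toReal ^ 2) : isoConst K < isoConst S := by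
  have h := Dn_lt hOne hn hK hA b hsub hvol
  have hG := box_good hOne hn hK hA b hsub hvol
  have h1 := (hG.iso hS).1
  refine lt_of_le_of_ne h1 fun he => ?_
  have h2 : Dn K = simpC n := by
    have h4 := he
    rw [isoConst_simplex hS, isoConst_eq, isoConst_eq, Dn_stdS (by omega)] at h4
    have hex : (0 : ℝ) < 1 / (2 * (n : ℝ)) := by
      have : (0 : ℝ) < n := by exact_mod_cast (by omega : 0 < n)
      positivity
    exact (Real.rpow_left_inj (Dn_nonneg hK) (simpC_pos n).le hex.ne').1 h4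
  exact h.ne h2

end Vale.Agent.P254.Box
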